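import Crest.Agent.N233.Dv.Mt

/-!
# Row 233 (helper43): the action of `W ⋊ F` on the basic construction; equivalence of the quotients
-/

set_option autoImplicit false
open Set Filter Topology unitInterval

noncomputable section

namespace Crest.Agent.N233.Dv

open Crest.Agent.N255.Ra MulAction

section quot
variable {G A B : Type} [Group G] [TopologicalSpace A] [TopologicalSpace B] [MulAction G A]
  [MulAction G B]

/-- the map of orbit spaces -/
def qmap (f : C(A, B)) (hf : ∀ (g : G) a, f (g • a) = g • f a) :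
    C(orbitRel.Quotient G A, orbitRel.Quotient G B) :=
  ⟨Quotient.map f (by rintro _ a ⟨g, rfl⟩; exact ⟨g, (hf g a).symm⟩),
    continuous_quotient_mk'.comp f.continuous |>.quotient_lift _⟩

theorem qmap_mk (f : C(A, B)) (hf : ∀ (g : G) a, f (g • a) = g • f a) (a : A) :
    qmap f hf (Quotient.mk _ a) = Quotient.mk _ (f a) := rfl

theorem qmap_homotopic [ContinuousConstSMul G A] {f f' : C(A, B)} (hf : ∀ (g : G) a, f (g • a) = g • f a)
    (hf' : ∀ (g : G) a, f' (g • a) = g • f' a) (H : f.Homotopy f')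
    (hH : ∀ (g : G) t a, H (t, g • a) = g • H (t, a)) : (qmap f hf).Homotopic (qmap f' hf') := by
  let L : I × orbitRel.Quotient G A → orbitRel.Quotient G B := fun q =>
    Quotient.map (fun a => H (q.1, a)) (by rintro _ a ⟨g, rfl⟩; exact ⟨g, (hH g _ a).symm⟩) q.2
  have hL : Continuous L :=
    (IsOpenQuotientMap.id.prodMap isOpenQuotientMap_quotientMk).isQuotientMap.continuous_iff.2
      (continuous_quotient_mk'.comp H.continuous)
  refine ⟨⟨⟨L, hL⟩, ?_, ?_⟩⟩ <;> rintro ⟨a⟩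
  · exact congrArg (Quotient.mk _) (H.apply_zero a)
  · exact congrArg (Quotient.mk _) (H.apply_one a)

/-- an equivariant homotopy equivalence descends -/
def qeqv [ContinuousConstSMul G A] [ContinuousConstSMul G B] (f : C(A, B)) (f' : C(B, A))
    (hf : ∀ (g : G) a, f (g • a) = g • f a) (hf' : ∀ (g : G) a, f' (g • a) = g • f' a)
    (H : (f'.comp f).Homotopy (.id _)) (H' : (f.comp f').Homotopy (.id _))
    (hH : ∀ (g : G) t a, H (t, g • a) = g • H (t, a))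
    (hH' : ∀ (g : G) t a, H' (t, g • a) = g • H' (t, a)) :
    ContinuousMap.HomotopyEquiv (orbitRel.Quotient G A) (orbitRel.Quotient G B) where
  toFun := qmap f hf
  invFun := qmap f' hf'
  left_inv := by
    convert qmap_homotopic (fun g a => by simp [hf, hf']) (fun _ _ => rfl) H hH using 1 <;>
      ext ⟨a⟩ <;> rfl
  right_inv := by
    convert qmap_homotopic (fun g a => by simp [hf, hf']) (fun _ _ => rfl) H' hH' using 1 <;>
      ext ⟨a⟩ <;> rfl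

end quot

variable {S : Type} {Γ : SimpleGraph S} {F : Type} [Group F]

theorem norm_perm {y y' : LI S} (φ : S ≃ S) (h : ∀ s, y' (φ s) = y s) : ‖y'‖ = ‖y‖ :=
  le_antisymm (norm_le (norm_nonneg _) fun s => by
    obtain ⟨s, rfl⟩ := φ.surjective s
    rw [h]; exact abs_le_norm y s) (norm_le (norm_nonneg _) fun s => by
    rw [← h]; exact abs_le_norm y' _)

/-- a chamber with symmetries -/
structure ChF (ρ : F →* (Γ ≃g Γ)) (T : Type) [TopologicalSpace T] [MulAction F T] extends Ch Γ T where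
  [act : MulAction F X]
  [cont : ContinuousConstSMul F X]
  p_smul : ∀ (f : F) x s, p (f • x) (ρ f s) = p x s
  a_smul : ∀ (f : F) x, a (f • x) = f • a x
  b_smul : ∀ (f : F) t, b (f • t) = f • b t
  h_smul : ∀ (f : F) x t, h (f • x, t) = f • h (x, t)

attribute [instance] ChF.act ChF.cont

/-- the big group -/
abbrev G0 (ρ : F →* (Γ ≃g Γ)) : Type := W Γ ⋊[autHom ρ] F

namespace ChF

variable {ρ : F →* (Γ ≃g Γ)} {T : Type} [TopologicalSpace T] [MulAction F T] (Φ Φ' : ChF ρ T)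

theorem tr_eq (g : G0 ρ) (u : W Γ) (x : Φ.X) :
    tr g.left (ρ g.right) (pt u (Φ.p x)) = pt (g.left * aut (ρ g.right) u) (Φ.p (g.right • x)) :=
  tr_pt _ _ _ (Φ.p_smul _ x)

instance : SMul (G0 ρ) Φ.toCh.Mt :=
  ⟨fun g m => ⟨(tr g.left (ρ g.right) m.1.1, g.right • m.1.2),
    m.2.elim fun u h => ⟨_, by rw [h]; exact Φ.tr_eq g u _⟩⟩⟩

theorem smul_mk' (g : G0 ρ) (u : W Γ) (x : Φ.X) :
    g • Φ.toCh.mk' u x = Φ.toCh.mk' (g.left * aut (ρ g.right) u) (g.right • x) :=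
  Subtype.ext (Prod.ext (Φ.tr_eq g u x) rfl)

theorem smul_snd (g : G0 ρ) (m : Φ.toCh.Mt) : (g • m).1.2 = g.right • m.1.2 := rfl

instance : MulAction (G0 ρ) Φ.toCh.Mt where
  one_smul m := by
    obtain ⟨u, x, rfl⟩ := Ch.exists_mk' m
    rw [smul_mk', ← autHom_apply]; simp
  mul_smul g g' m := by
    obtain ⟨u, x, rfl⟩ := Ch.exists_mk' m
    simp only [smul_mk', ← autHom_apply]
    simp [mul_smul, mul_assoc]

instance : ContinuousConstSMul (G0 ρ) Φ.toCh.Mt :=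
  ⟨fun g => (((continuous_tr _ _).comp (by fun_prop)).prodMk (by fun_prop)).subtype_mk _⟩

instance (G : Subgroup (G0 ρ)) : ContinuousConstSMul G Φ.toCh.Mt := ⟨fun g => continuous_const_smul g.1⟩

theorem inl_smul (w u : W Γ) (x : Φ.X) :
    (SemidirectProduct.inl w : G0 ρ) • Φ.toCh.mk' u x = Φ.toCh.mk' (w * u) x := by
  rw [smul_mk', ← autHom_apply]; simp

theorem norm_smul (f : F) (x : Φ.X) : ‖Φ.p (f • x)‖ = ‖Φ.p x‖ := norm_perm (ρ f).toEquiv (Φ.p_smul f x)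

theorem j_smul (f : F) {x : Φ.X} (h : Φ.p x ≠ 0) : Φ'.j (Φ.p (f • x)) = f • Φ'.j (Φ.p x) := by
  have e : Φ'.p (f • Φ'.j (Φ.p x)) = Φ.p (f • x) := li_ext fun s => by
    obtain ⟨s, rfl⟩ := (ρ f).surjective s
    rw [Φ'.p_smul, Φ.p_smul, Φ'.pj _ (Φ.p_mem x) h]
  rw [← e, Φ'.jp]
  rwa [e, ← norm_ne_zero_iff, norm_smul, norm_ne_zero_iff]

variable (c : Cmb F T)

theorem pa_smul (f : F) (x : Φ.X) (τ : T) (s : ℝ) :
    Φ.toCh.pa c (f • x) (f • τ) s = f • Φ.toCh.pa c x τ s := by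
  unfold Ch.pa
  split_ifs
  · rw [a_smul, c.smul, b_smul]
  · rw [h_smul]

theorem kf_smul (f : F) (x : Φ.X) : Φ.toCh.kf Φ'.toCh c (f • x) = f • Φ.toCh.kf Φ'.toCh c x := by
  unfold Ch.kf
  rw [norm_smul]
  split_ifs with h
  · rw [a_smul, b_smul]
  · rw [j_smul _ _ _ (Φ.toCh.ne_zero (by norm_num) (not_le.1 h).le), a_smul, pa_smul]

theorem ga_smul (f : F) (x0 x : Φ.X) (t : ℝ) :
    Φ.toCh.ga c (f • x0) (f • x) t = f • Φ.toCh.ga c x0 x t := by
  unfold Ch.ga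
  split_ifs
  · rw [h_smul]
  · rw [a_smul, pa_smul]

theorem Hf_smul (f : F) (t : I) (x : Φ.X) :
    Φ.toCh.Hf Φ'.toCh c (t, f • x) = f • Φ.toCh.Hf Φ'.toCh c (t, x) := by
  unfold Ch.Hf
  simp only [norm_smul]
  split_ifs
  · rw [kf_smul, kf_smul, ga_smul]
  · rw [h_smul]

theorem K_smul (g : G0 ρ) (m : Φ.toCh.Mt) :
    Φ.toCh.K Φ'.toCh c (g • m) = g • Φ.toCh.K Φ'.toCh c m := by
  obtain ⟨u, x, rfl⟩ := Ch.exists_mk' m
  rw [smul_mk', Ch.K_mk', Ch.K_mk', smul_mk', kf_smul]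

theorem HK_smul (g : G0 ρ) (t : I) (m : Φ.toCh.Mt) :
    Φ.toCh.HK Φ'.toCh c (t, g • m) = g • Φ.toCh.HK Φ'.toCh c (t, m) := by
  obtain ⟨u, x, rfl⟩ := Ch.exists_mk' m
  rw [smul_mk', Ch.HK_mk', Ch.HK_mk', smul_mk', Hf_smul]

/-- the quotients for two chambers are homotopy equivalent -/
def eqv (G : Subgroup (G0 ρ)) : ContinuousMap.HomotopyEquiv (orbitRel.Quotient G Φ.toCh.Mt)
    (orbitRel.Quotient G Φ'.toCh.Mt) :=
  qeqv (Φ.toCh.K Φ'.toCh c) (Φ'.toCh.K Φ.toCh c) (fun g => Φ.K_smul Φ' c g.1)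
    (fun g => Φ'.K_smul Φ c g.1) (Φ.toCh.HK Φ'.toCh c) (Φ'.toCh.HK Φ.toCh c)
    (fun g => Φ.HK_smul Φ' c g.1) fun g => Φ'.HK_smul Φ c g.1

/-- the chambers through a compact set -/
theorem chambers_finite {K : Set Φ.toCh.Mt} (hK : IsCompact K) :
    {u | ∃ x, Φ.toCh.mk' u x ∈ K}.Finite := by
  obtain ⟨t, -, ht⟩ := hK.elim_nhds_subcover (fun m => {m' | ‖m.1.1 - m'.1.1‖ < 1}) fun m _ =>
    (isOpen_lt (by fun_prop) continuous_const).mem_nhds (by simp)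
  refine (t.finite_toSet.biUnion fun m _ => near_finite (Φ.p_mem m.1.2) m.2.choose).subset ?_
  rintro u ⟨x, hx⟩
  obtain ⟨m, hm, h⟩ := mem_iUnion₂.1 (ht hx)
  exact mem_iUnion₂.2 ⟨m, hm, Φ.p x, Φ.p_mem x, by rw [← m.2.choose_spec]; exact h⟩

instance [ProperlyDiscontinuousSMul F Φ.X] : ProperlyDiscontinuousSMul (G0 ρ) Φ.toCh.Mt := ⟨by
  intro K L hK hL
  have c2 : Continuous fun m : Φ.toCh.Mt => m.1.2 := by fun_prop
  have h1 := ProperlyDiscontinuousSMul.finite_disjoint_inter_image (Γ := F) (hK.image c2) (hL.image c2)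
  refine ((h1.prod ((Φ.chambers_finite hK).prod (Φ.chambers_finite hL))).image
    fun q => (⟨q.2.2 * (aut (ρ q.1) q.2.1)⁻¹, q.1⟩ : G0 ρ)).subset ?_
  rintro g ⟨_, ⟨m, hm, rfl⟩, h⟩
  obtain ⟨u, x, rfl⟩ := Ch.exists_mk' m
  refine ⟨(g.right, u, g.left * aut (ρ g.right) u), ⟨⟨g.right • x, ⟨x, ⟨_, hm, rfl⟩, rfl⟩, _, h, rfl⟩,
    ⟨x, hm⟩, g.right • x, by rwa [← smul_mk']⟩, ?_⟩
  ext <;> simp⟩

theorem free (hF : ∀ (f : F) (x : Φ.X), f • x = x → f = 1) {G : Subgroup (G0 ρ)} (hG : Tf G) (g : G)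
    (m : Φ.toCh.Mt) (h : g • m = m) : g = 1 := by
  obtain ⟨u, x, rfl⟩ := Ch.exists_mk' m
  have h1 : g.1.right = 1 := hF _ x (congrArg (fun m : Φ.toCh.Mt => m.1.2) h)
  have h2 : pt (g.1.left * u) (Φ.p x) = pt u (Φ.p x) := by
    have := congrArg (fun m : Φ.toCh.Mt => m.1.1) ((Φ.smul_mk' g.1 u x).symm.trans h)
    rw [h1, ← autHom_apply] at this
    simpa [Ch.mk'] using this
  have h3 := near_mem (u := u) (u' := g.1.left * u) (y := Φ.p x) (Φ.p_mem x).2 (by simp [h2])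
  exact Subtype.ext (SemidirectProduct.ext
    (hG g.1 g.2 h1 u _ (Φ.p_mem x).1.2 (by rwa [mul_assoc])) h1)

end ChF

end Crest.Agent.N233.Dv

end
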