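import Crest.Agent.N233.Dv.Sig

/-!
# Row 233 (helper43): the basic construction on a chamber; chamberwise maps; contractibility
-/

set_option autoImplicit false
open Set Filter Topology unitInterval

noncomputable section

namespace Crest.Agent.N233.Dv

open Crest.Agent.N255.Ra

variable {S : Type} {Γ : SimpleGraph S}

/-- a chamber: the cone `Kc Γ` with the apex replaced by a space dominated by `T` -/
structure Ch (Γ : SimpleGraph S) (T : Type) [TopologicalSpace T] where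
  X : Type
  [top : TopologicalSpace X]
  p : C(X, LI S)
  p_mem : ∀ x, p x ∈ Kc Γ
  j : LI S → X
  j_cont : ContinuousOn j (Kc Γ \ {0})
  pj : ∀ y ∈ Kc Γ, y ≠ 0 → p (j y) = y
  jp : ∀ x, p x ≠ 0 → j (p x) = x
  a : C(X, T)
  b : C(T, X)
  h : C(X × I, X)
  h_zero : ∀ x, h (x, 0) = x
  h_one : ∀ x, h (x, 1) = b (a x)

attribute [instance] Ch.top

namespace Ch

variable {T : Type} [TopologicalSpace T] (Φ Φ' : Ch Γ T)

/-- the basic construction -/
abbrev Mt : Type := {m : LI (W Γ) × Φ.X // ∃ u, m.1 = pt u (Φ.p m.2)}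

/-- the point `x` of the chamber `u` -/
def mk' (u : W Γ) (x : Φ.X) : Φ.Mt := ⟨(pt u (Φ.p x), x), u, rfl⟩

theorem continuous_mk' (u : W Γ) : Continuous (Φ.mk' u) :=
  (((continuous_pt u).comp Φ.p.continuous).prodMk continuous_id).subtype_mk _

variable {Φ Φ'}

theorem exists_mk' (m : Φ.Mt) : ∃ u x, m = Φ.mk' u x :=
  m.2.imp fun _ h => ⟨m.1.2, Subtype.ext (Prod.ext h rfl)⟩

section mp
variable {P : Type} [TopologicalSpace P] (k : C(P × Φ.X, Φ'.X))

/-- a family of maps that is the identity near the mirrors -/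
def Rel : Prop := ∀ t x, 3 / 4 ≤ ‖Φ.p x‖ → Φ'.p (k (t, x)) = Φ.p x

/-- the chamberwise map -/
def mpf (q : P × Φ.Mt) : Φ'.Mt := Φ'.mk' q.2.2.choose (k (q.1, q.2.1.2))

variable {k}

theorem mpf_mk' (hk : Rel k) (t : P) (u : W Γ) (x : Φ.X) :
    mpf k (t, Φ.mk' u x) = Φ'.mk' u (k (t, x)) := by
  have e : pt u (Φ.p x) = pt (Φ.mk' u x).2.choose (Φ.p x) := (Φ.mk' u x).2.choose_spec
  refine Subtype.ext (Prod.ext ?_ rfl)
  change pt (Φ.mk' u x).2.choose (Φ'.p (k (t, x))) = pt u (Φ'.p (k (t, x)))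
  by_cases h : ‖Φ.p x‖ < 1
  · rw [← near_eq (Φ.p_mem x).2 (u := u) (u' := (Φ.mk' u x).2.choose) (y := Φ.p x)
      (by rw [← e, sub_self, norm_zero]; linarith)]
  · rw [hk t x (by linarith), ← e]

theorem continuous_mpf (hk : Rel k) : Continuous (mpf k) := by
  have c2 : Continuous fun q : P × Φ.Mt => k (q.1, q.2.1.2) := by fun_prop
  refine continuous_iff_continuousAt.2 fun q0 => ?_
  obtain ⟨t0, m0⟩ := q0
  obtain ⟨u0, x0, rfl⟩ := exists_mk' m0
  by_cases h : ‖Φ.p x0‖ < 1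
  · refine ((Φ'.continuous_mk' u0).comp c2).continuousAt.congr ?_
    have h1 : ∀ᶠ q : P × Φ.Mt in 𝓝 (t0, Φ.mk' u0 x0), ‖pt u0 (Φ.p x0) - q.2.1.1‖ < 1 - ‖Φ.p x0‖ :=
      (by fun_prop : Continuous fun q : P × Φ.Mt => ‖pt u0 (Φ.p x0) - q.2.1.1‖).continuousAt.eventually_lt
        continuousAt_const (by simpa [mk'] using h)
    filter_upwards [h1] with ⟨t, m⟩ h1
    obtain ⟨u, x, rfl⟩ := exists_mk' m
    rw [mpf_mk' hk, near_eq (Φ.p_mem x).2 h1]
    rfl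
  · rw [IsInducing.subtypeVal.continuousAt_iff]
    refine ((by fun_prop : Continuous fun q : P × Φ.Mt => q.2.1.1).prodMk c2).continuousAt.congr ?_
    have h1 : ∀ᶠ q : P × Φ.Mt in 𝓝 (t0, Φ.mk' u0 x0), 3 / 4 < ‖Φ.p q.2.1.2‖ :=
      continuousAt_const.eventually_lt
        (by fun_prop : Continuous fun q : P × Φ.Mt => ‖Φ.p q.2.1.2‖).continuousAt
        (by change _ < ‖Φ.p x0‖; linarith)
    filter_upwards [h1] with ⟨t, m⟩ h1
    obtain ⟨u, x, rfl⟩ := exists_mk' m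
    rw [Function.comp, mpf_mk' hk]
    exact Prod.ext (congrArg (pt u) (hk t x h1.le).symm) rfl

end mp

variable {F : Type} [Group F] [MulAction F T] (c : Cmb F T)

/-- clamp -/
abbrev cl (s : ℝ) : I := projIcc 0 1 zero_le_one s

theorem continuous_cl : Continuous cl := continuous_projIcc

variable (Φ Φ')

/-- the canonical path from `b τ` (time `0`) to `x` (time `2`) -/
def pa (x : Φ.X) (τ : T) (s : ℝ) : Φ.X :=
  if s ≤ 1 then Φ.b (c.c (τ, Φ.a x, cl s)) else Φ.h (x, cl (2 - s))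

theorem continuous_pa : Continuous fun q : Φ.X × T × ℝ => Φ.pa c q.1 q.2.1 q.2.2 := by
  have := continuous_cl
  refine Continuous.if_le (by fun_prop) (by fun_prop) (by fun_prop) continuous_const fun q h => ?_
  rw [h, show (2 : ℝ) - 1 = 1 by norm_num, cl, projIcc_right]
  exact (congrArg Φ.b (c.one _ _)).trans (Φ.h_one _).symm

theorem pa_zero (x : Φ.X) (τ : T) : Φ.pa c x τ 0 = Φ.b τ := by
  rw [pa, if_pos zero_le_one, cl, projIcc_left]
  exact congrArg Φ.b (c.zero _ _)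

theorem pa_two (x : Φ.X) (τ : T) {s : ℝ} (h : 2 ≤ s) : Φ.pa c x τ s = x := by
  rw [pa, if_neg (by linarith), cl, projIcc_of_le_left _ (by linarith)]
  exact Φ.h_zero x

theorem pa_diag (x : Φ.X) (s : ℝ) : Φ.pa c x (Φ.a x) s = Φ.h (x, cl (2 - s)) := by
  unfold pa
  split_ifs with h
  · rw [c.diag, cl, projIcc_of_right_le _ (by linarith)]
    exact (Φ.h_one x).symm
  · rfl

theorem ne_zero {x : Φ.X} {r : ℝ} (hr : 0 < r) (h : r ≤ ‖Φ.p x‖) : Φ.p x ≠ 0 := fun e => by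
  rw [e, norm_zero] at h; linarith

/-- the comparison map of two chambers -/
def kf (x : Φ.X) : Φ'.X :=
  if ‖Φ.p x‖ ≤ 1 / 4 then Φ'.b (Φ.a x) else Φ'.pa c (Φ'.j (Φ.p x)) (Φ.a x) (8 * ‖Φ.p x‖ - 2)

theorem continuous_kf : Continuous (Φ.kf Φ' c) := by
  refine continuous_if_le (by fun_prop) continuous_const (by fun_prop) ?_ fun x h => ?_
  · refine (Φ'.continuous_pa c).comp_continuousOn
      (f := fun x => (Φ'.j (Φ.p x), Φ.a x, 8 * ‖Φ.p x‖ - 2)) (ContinuousOn.prodMk ?_ (by fun_prop))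
    exact Φ'.j_cont.comp Φ.p.continuous.continuousOn fun x h =>
      ⟨Φ.p_mem x, Φ.ne_zero (by norm_num) h⟩
  · rw [h, show (8 : ℝ) * (1 / 4) - 2 = 0 by norm_num, pa_zero]

theorem kf_eq {x : Φ.X} (h : 1 / 2 ≤ ‖Φ.p x‖) : Φ.kf Φ' c x = Φ'.j (Φ.p x) := by
  rw [kf, if_neg (by linarith), pa_two _ _ _ _ (by linarith)]

theorem p_kf {x : Φ.X} (h : 1 / 2 ≤ ‖Φ.p x‖) : Φ'.p (Φ.kf Φ' c x) = Φ.p x := by
  rw [kf_eq _ _ _ h, Φ'.pj _ (Φ.p_mem x) (Φ.ne_zero (by norm_num) h)]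

theorem kf_kf {x : Φ.X} (h : 1 / 2 ≤ ‖Φ.p x‖) : Φ'.kf Φ c (Φ.kf Φ' c x) = x := by
  rw [kf_eq _ _ _ (by rwa [p_kf _ _ _ h]), p_kf _ _ _ h, Φ.jp _ (Φ.ne_zero (by norm_num) h)]

/-- the comparison map of two chambers -/
def k : C(Unit × Φ.X, Φ'.X) := ⟨fun q => Φ.kf Φ' c q.2, (Φ.continuous_kf Φ' c).comp continuous_snd⟩

theorem rel_k : Rel (Φ.k Φ' c) := fun _ _ h => Φ.p_kf Φ' c (by linarith)

/-- the canonical path from `x0` to `x` -/
def ga (x0 x : Φ.X) (t : ℝ) : Φ.X :=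
  if t ≤ 1 / 3 then Φ.h (x0, cl (3 * t)) else Φ.pa c x (Φ.a x0) (3 * t - 1)

theorem continuous_ga : Continuous fun q : Φ.X × Φ.X × ℝ => Φ.ga c q.1 q.2.1 q.2.2 := by
  have := continuous_cl
  refine Continuous.if_le (by fun_prop) ((Φ.continuous_pa c).comp
    (f := fun q : Φ.X × Φ.X × ℝ => (q.2.1, Φ.a q.1, 3 * q.2.2 - 1)) (by fun_prop)) (by fun_prop)
    continuous_const fun q h => ?_
  rw [h, show (3 : ℝ) * (1 / 3) = 1 by norm_num, sub_self, pa_zero, cl, projIcc_right]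
  exact Φ.h_one _

theorem ga_diag (x : Φ.X) (t : ℝ) : Φ.ga c x x t = Φ.h (x, cl (min (3 * t) (3 - 3 * t))) := by
  unfold ga
  split_ifs with h
  · rw [min_eq_left (by linarith)]
  · rw [pa_diag]
    rcases le_total (3 * t) (3 - 3 * t) with h1 | h1
    · rw [min_eq_left h1, cl, cl, projIcc_of_right_le _ (by linarith), projIcc_of_right_le _ (by linarith)]
    · rw [min_eq_right h1]; congr 3; ring

/-- the homotopy, relative to the collar, from the composite of the comparison maps to the identity -/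
def Hf (q : I × Φ.X) : Φ.X :=
  if ‖Φ.p q.2‖ ≤ 1 / 2 then Φ.ga c (Φ'.kf Φ c (Φ.kf Φ' c q.2)) q.2 q.1
  else Φ.h (q.2, cl (max 0 (3 - 4 * ‖Φ.p q.2‖) * min (3 * (q.1 : ℝ)) (3 - 3 * (q.1 : ℝ))))

theorem continuous_Hf : Continuous (Φ.Hf Φ' c) := by
  have := continuous_cl
  have := Φ.continuous_kf Φ' c
  have := Φ'.continuous_kf Φ c
  refine Continuous.if_le ((Φ.continuous_ga c).comp
    (f := fun q : I × Φ.X => (Φ'.kf Φ c (Φ.kf Φ' c q.2), q.2, (q.1 : ℝ))) (by fun_prop)) (by fun_prop)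
    (by fun_prop) continuous_const fun q h => ?_
  rw [kf_kf _ _ _ h.ge, ga_diag, h]
  norm_num

/-- the homotopy -/
def H : C(I × Φ.X, Φ.X) := ⟨Φ.Hf Φ' c, Φ.continuous_Hf Φ' c⟩

theorem rel_H : Rel (Φ.H Φ' c) := fun t x h => by
  change Φ.p (Φ.Hf Φ' c (t, x)) = _
  rw [Hf, if_neg (by dsimp only; linarith), max_eq_left (by dsimp only; linarith), zero_mul, cl,
    projIcc_left]
  exact congrArg Φ.p (Φ.h_zero x)

theorem H_zero (x : Φ.X) : Φ.H Φ' c (0, x) = Φ'.kf Φ c (Φ.kf Φ' c x) := by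
  change Φ.Hf Φ' c (0, x) = _
  unfold Hf
  split_ifs with h
  · rw [ga, if_pos (by norm_num)]
    simpa using Φ.h_zero _
  · rw [kf_kf _ _ _ (not_le.1 h).le]
    simpa using Φ.h_zero _

theorem H_one (x : Φ.X) : Φ.H Φ' c (1, x) = x := by
  change Φ.Hf Φ' c (1, x) = _
  unfold Hf
  split_ifs with h
  · rw [ga, if_neg (by norm_num), pa_two _ _ _ _ (by norm_num)]
  · simpa using Φ.h_zero _

/-- the comparison map of the basic constructions -/
def K : C(Φ.Mt, Φ'.Mt) :=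
  ⟨fun m => mpf (Φ.k Φ' c) ((), m), (continuous_mpf (Φ.rel_k Φ' c)).comp (by fun_prop)⟩

theorem K_mk' (u : W Γ) (x : Φ.X) : Φ.K Φ' c (Φ.mk' u x) = Φ'.mk' u (Φ.kf Φ' c x) :=
  mpf_mk' (Φ.rel_k Φ' c) _ _ _

/-- the comparison maps are homotopy inverse -/
def HK : ((Φ'.K Φ c).comp (Φ.K Φ' c)).Homotopy (.id _) where
  toFun := mpf (Φ.H Φ' c)
  continuous_toFun := continuous_mpf (Φ.rel_H Φ' c)
  map_zero_left m := by
    obtain ⟨u, x, rfl⟩ := exists_mk' m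
    rw [mpf_mk' (Φ.rel_H Φ' c), H_zero, ContinuousMap.comp_apply, K_mk', K_mk']
  map_one_left m := by
    obtain ⟨u, x, rfl⟩ := exists_mk' m
    rw [mpf_mk' (Φ.rel_H Φ' c), H_one, ContinuousMap.id_apply]

theorem HK_mk' (t : I) (u : W Γ) (x : Φ.X) :
    Φ.HK Φ' c (t, Φ.mk' u x) = Φ.mk' u (Φ.Hf Φ' c (t, x)) := mpf_mk' (Φ.rel_H Φ' c) _ _ _

/-- the comparison equivalence -/
def eqv : ContinuousMap.HomotopyEquiv Φ.Mt Φ'.Mt := ⟨Φ.K Φ' c, Φ'.K Φ c, ⟨Φ.HK Φ' c⟩, ⟨Φ'.HK Φ c⟩⟩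

end Ch

theorem smul_mem_Kc {y : LI S} (hy : y ∈ Kc Γ) {t : ℝ} (h0 : 0 ≤ t) (h1 : t ≤ 1) : t • y ∈ Kc Γ :=
  ⟨⟨fun s => mul_nonneg h0 (hy.1.1 s), Fl.mono hy.1.2 fun s h e => h (by
    change t * y s = 0
    rw [e, mul_zero])⟩, by
      rw [norm_smul, Real.norm_of_nonneg h0]
      exact mul_le_one₀ h1 (norm_nonneg _) hy.2⟩

open Classical in
/-- the standard chamber -/
def cone (Γ : SimpleGraph S) {T : Type} [TopologicalSpace T] (t0 : T) : Ch Γ T where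
  X := Kc Γ
  p := ⟨Subtype.val, continuous_subtype_val⟩
  p_mem x := x.2
  j y := if h : y ∈ Kc Γ then ⟨y, h⟩ else ⟨0, zero_mem_Kc⟩
  j_cont := by
    rw [IsInducing.subtypeVal.continuousOn_iff]
    exact continuousOn_id.congr fun y hy => by simp [hy.1]
  pj y hy _ := by simp [hy]
  jp x _ := by simp
  a := .const _ t0
  b := .const _ ⟨0, zero_mem_Kc⟩
  h := ⟨fun q => ⟨(1 - q.2 : ℝ) • q.1, smul_mem_Kc q.1.2 (by linarith [q.2.2.2]) (by linarith [q.2.2.1])⟩,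
    Continuous.subtype_mk (by fun_prop) _⟩
  h_zero x := by simp
  h_one x := by simp

/-- the chamber coordinate -/
def crd (z : Sig Γ) : Kc Γ := ⟨z.2.choose_spec.choose, z.2.choose_spec.choose_spec.1⟩

theorem crd_spec (z : Sig Γ) : ∃ u, z.1 = pt u (crd z).1 := ⟨_, z.2.choose_spec.choose_spec.2⟩

theorem continuous_crd : Continuous (crd : Sig Γ → Kc Γ) :=
  (LipschitzWith.of_dist_le_mul (K := 1) fun z z' => by
    obtain ⟨u, e⟩ := crd_spec z
    obtain ⟨u', e'⟩ := crd_spec z'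
    rw [NNReal.coe_one, one_mul, Subtype.dist_eq, Subtype.dist_eq, dist_eq_norm, dist_eq_norm, e, e']
    exact sub_le_pt (crd z).2 (crd z').2 u u').continuous

/-- the basic construction on the standard chamber is the Davis complex -/
def coneHomeo (Γ : SimpleGraph S) {T : Type} [TopologicalSpace T] (t0 : T) :
    (cone Γ t0).Mt ≃ₜ Sig Γ where
  toFun m := ⟨m.1.1, m.2.imp fun _ h => ⟨_, m.1.2.2, h⟩⟩
  invFun z := ⟨(z.1, crd z), crd_spec z⟩
  left_inv m := by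
    obtain ⟨u, x, rfl⟩ := Ch.exists_mk' m
    obtain ⟨u', e⟩ := crd_spec ⟨pt u x.1, u, x.1, x.2, rfl⟩
    refine Subtype.ext (Prod.ext rfl (Subtype.ext (eq_of_norm_sub_le_zero ?_)))
    refine (sub_le_pt (crd _).2 x.2 u' u).trans (le_of_eq ?_)
    exact norm_eq_zero.2 (sub_eq_zero.2 e.symm)
  right_inv _ := rfl
  continuous_toFun := (continuous_fst.comp continuous_subtype_val).subtype_mk _
  continuous_invFun := (continuous_subtype_val.prodMk continuous_crd).subtype_mk _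

theorem Ch.contractible {T F : Type} [TopologicalSpace T] [Group F] [MulAction F T] (Φ : Ch Γ T)
    (c : Cmb F T) (x : Φ.X) : ContractibleSpace Φ.Mt :=
  haveI := (coneHomeo Γ (Φ.a x)).contractibleSpace
  (Φ.eqv (cone Γ (Φ.a x)) c).contractibleSpace

end Crest.Agent.N233.Dv

end
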