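import Crest.Agent.N233.Dv.Wall

/-!
# Row 233 (helper43): the Davis complex inside the cube `[-1,1]^W`

`pt u y` = the point `y` of the chamber `u`.
-/

set_option autoImplicit false
open Set
open scoped ENNReal

noncomputable section

namespace Crest.Agent.N233.Dv

open Crest.Agent.N255.Ra

section LI
variable {S : Type}

/-- a bounded function -/
def mkL (f : S → ℝ) (C : ℝ) (h : ∀ s, |f s| ≤ C) : LI S :=
  ⟨f, memℓp_infty ⟨C, by rintro _ ⟨s, rfl⟩; exact h s⟩⟩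

@[simp] theorem mkL_apply (f : S → ℝ) (C : ℝ) (h : ∀ s, |f s| ≤ C) (s : S) : mkL f C h s = f s := rfl

theorem abs_le_norm (y : LI S) (s : S) : |y s| ≤ ‖y‖ := lp.norm_apply_le_norm ENNReal.top_ne_zero y s

theorem le_norm (y : LI S) (s : S) : y s ≤ ‖y‖ := (le_abs_self _).trans (abs_le_norm y s)

theorem norm_le {y : LI S} {C : ℝ} (hC : 0 ≤ C) (h : ∀ s, |y s| ≤ C) : ‖y‖ ≤ C :=
  lp.norm_le_of_forall_le hC h

theorem sub_le_norm (y y' : LI S) (s : S) : |y s - y' s| ≤ ‖y - y'‖ := abs_le_norm (y - y') s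

theorem norm_sub_le' {y y' : LI S} {C : ℝ} (hC : 0 ≤ C) (h : ∀ s, |y s - y' s| ≤ C) :
    ‖y - y'‖ ≤ C := norm_le hC h

theorem li_ext {y y' : LI S} (h : ∀ s, y s = y' s) : y = y' := lp.ext (funext h)

theorem cont_of {S' : Type} {f : LI S → LI S'} (h : ∀ y y' s, |f y s - f y' s| ≤ ‖y - y'‖) :
    Continuous f :=
  (LipschitzWith.of_dist_le_mul (K := 1) fun y y' => by
    rw [NNReal.coe_one, one_mul, dist_eq_norm, dist_eq_norm]
    exact norm_sub_le' (norm_nonneg _) (h y y')).continuous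

theorem exists_lt {y : LI S} {c : ℝ} (hc : 0 ≤ c) (h : c < ‖y‖) : ∃ s, c < |y s| := by
  by_contra e
  push Not at e
  exact (norm_le hc e).not_gt h

/-- fold `[0,2]` onto `[0,1]` -/
def fld (y : LI S) : LI S := mkL (fun s => 1 - |1 - y s|) ‖y‖ fun s => by
  have := abs_le.1 (abs_le_norm y s)
  rcases abs_cases (1 - y s) with h | h <;> rw [h.1, abs_le] <;> constructor <;> linarith

theorem fld_apply (y : LI S) (s : S) : fld y s = 1 - |1 - y s| := rfl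

theorem continuous_fld : Continuous (fld : LI S → LI S) := cont_of fun y y' s => by
  rw [fld_apply, fld_apply, sub_sub_sub_cancel_left]
  refine (abs_abs_sub_abs_le_abs_sub _ _).trans ?_
  rw [sub_sub_sub_cancel_left]
  exact sub_le_norm y y' s

theorem fld_eq {y : LI S} (h : ‖y‖ ≤ 1) : fld y = y := li_ext fun s => by
  have := le_norm y s
  rw [fld_apply, abs_of_nonneg (by linarith)]; ring

end LI

variable {S : Type} {Γ : SimpleGraph S}

/-- the chamber -/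
def Kc (Γ : SimpleGraph S) : Set (LI S) := {y | y ∈ Cone (Fl Γ) ∧ ‖y‖ ≤ 1}

theorem Fl.mono {A B : Set S} (h : Fl Γ B) (hs : A ⊆ B) : Fl Γ A := ⟨h.1.subset hs, h.2.subset hs⟩

theorem zero_mem_Kc : (0 : LI S) ∈ Kc Γ :=
  ⟨⟨fun _ => le_rfl, by simp [Fl]⟩, by simp⟩

/-- extension by zero -/
def ex (y : S → ℝ) : W Γ → ℝ := Function.extend (gen Γ) y 0

@[simp] theorem ex_gen (y : S → ℝ) (s : S) : ex y (gen Γ s) = y s := gen_injective.extend_apply _ _ _

theorem ex_of {r : W Γ} (y : S → ℝ) (h : ¬∃ s, gen Γ s = r) : ex y r = 0 :=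
  Function.extend_apply' _ _ _ h

theorem ex_ind (r : W Γ) : (∃ s, r = gen Γ s) ∨ (∀ s, gen Γ s ≠ r) ∧ ∀ y : S → ℝ, ex y r = 0 := by
  by_cases h : ∃ s, gen Γ s = r
  · obtain ⟨s, rfl⟩ := h; exact Or.inl ⟨s, rfl⟩
  · exact Or.inr ⟨fun s e => h ⟨s, e⟩, fun y => ex_of y h⟩

theorem mem_of_ex {r : W Γ} {y : S → ℝ} (h : ex y r ≠ 0) : r ∈ gen Γ '' {s | y s ≠ 0} := by
  rcases ex_ind r with ⟨s, rfl⟩ | ⟨-, e⟩
  · exact ⟨s, by simpa using h, rfl⟩
  · exact absurd (e y) h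

theorem ex_sub (y y' : LI S) (r : W Γ) : |ex y r - ex y' r| ≤ ‖y - y'‖ := by
  rcases ex_ind r with ⟨s, rfl⟩ | ⟨-, e⟩
  · simpa using sub_le_norm y y' s
  · simp [e]

theorem abs_ex (y : LI S) (r : W Γ) : |ex y r| ≤ ‖y‖ := by
  rcases ex_ind r with ⟨s, rfl⟩ | ⟨-, e⟩
  · simpa using abs_le_norm y s
  · simp [e]

theorem ex_conj {y : S → ℝ} {A : Set S} (hA : Γ.IsClique A) (hy : {s | y s ≠ 0} ⊆ A) {u : W Γ}
    (hu : u ∈ WT Γ A) (r : W Γ) : ex y (u⁻¹ * r * u) = ex y r := by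
  have a : ∀ {u r : W Γ}, u ∈ WT Γ A → ex y r ≠ 0 → u⁻¹ * r * u = r := fun {u r} hu h => by
    obtain ⟨s, hs, rfl⟩ := mem_of_ex h
    simpa using conj_WT hA (inv_mem hu) (hy hs)
  by_cases h : ex y r = 0
  · by_contra h'
    have := a (inv_mem hu) (h ▸ h')
    rw [← this] at h'
    simp [mul_assoc] at h'
  · rw [a hu h]

open Classical in
/-- the side of a wall -/
def sg (u r : W Γ) : ℝ := if r ∈ N u then -1 else 1

theorem sg_mem {u r : W Γ} (h : r ∈ N u) : sg u r = -1 := if_pos h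
theorem sg_nmem {u r : W Γ} (h : r ∉ N u) : sg u r = 1 := if_neg h
@[simp] theorem sg_one (r : W Γ) : sg 1 r = 1 := sg_nmem (by simp)

@[simp] theorem abs_sg (u r : W Γ) : |sg u r| = 1 := by unfold sg; split_ifs <;> simp

theorem sg_mul (u v r : W Γ) : sg (u * v) r = sg u r * sg v (u⁻¹ * r * u) := by
  unfold sg
  rw [mem_N_mul]
  by_cases h : r ∈ N u <;> by_cases h' : u⁻¹ * r * u ∈ N v <;> simp [h, h']

theorem sg_aut (φ : Γ ≃g Γ) (u r : W Γ) : sg (aut φ u) (aut φ r) = sg u r := by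
  unfold sg; rw [mem_N_aut]

/-- the point `y` of the chamber `u` -/
def pt (u : W Γ) (y : LI S) : LI (W Γ) :=
  mkL (fun r => sg u r * (1 - ex y (u⁻¹ * r * u))) (1 + ‖y‖) fun r => by
    rw [abs_mul, abs_sg, one_mul]
    exact (abs_sub _ _).trans (by simpa using abs_ex y _)

theorem pt_apply (u : W Γ) (y : LI S) (r : W Γ) : pt u y r = sg u r * (1 - ex y (u⁻¹ * r * u)) := rfl

theorem pt_one (y : LI S) (r : W Γ) : pt 1 y r = 1 - ex y r := by simp [pt_apply]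

theorem pt_sub (u : W Γ) (y y' : LI S) (r : W Γ) : |pt u y r - pt u y' r| ≤ ‖y - y'‖ := by
  rw [pt_apply, pt_apply, ← mul_sub, abs_mul, abs_sg, one_mul, sub_sub_sub_cancel_left, abs_sub_comm]
  exact ex_sub y y' _

theorem continuous_pt (u : W Γ) : Continuous (pt u) := cont_of (pt_sub u)

/-- the action of `W ⋊ Aut` on the cube -/
def tr (w : W Γ) (φ : Γ ≃g Γ) (z : LI (W Γ)) : LI (W Γ) :=
  mkL (fun r => sg w r * z ((aut φ).symm (w⁻¹ * r * w))) ‖z‖ fun r => by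
    rw [abs_mul, abs_sg, one_mul]; exact abs_le_norm z _

theorem tr_apply (w : W Γ) (φ : Γ ≃g Γ) (z : LI (W Γ)) (r : W Γ) :
    tr w φ z r = sg w r * z ((aut φ).symm (w⁻¹ * r * w)) := rfl

theorem continuous_tr (w : W Γ) (φ : Γ ≃g Γ) : Continuous (tr w φ) := cont_of fun z z' r => by
  rw [tr_apply, tr_apply, ← mul_sub, abs_mul, abs_sg, one_mul]
  exact sub_le_norm z z' _

theorem ex_aut (φ : Γ ≃g Γ) {y y' : S → ℝ} (h : ∀ s, y' (φ s) = y s) (r : W Γ) :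
    ex y' (aut φ r) = ex y r := by
  rcases ex_ind r with ⟨s, rfl⟩ | ⟨h1, e⟩
  · simp [h]
  · rw [e, ex_of]
    rintro ⟨s, hs⟩
    obtain ⟨s, rfl⟩ := φ.surjective s
    exact h1 s ((aut φ).injective (by rw [← hs]; simp))

theorem tr_pt (w : W Γ) (φ : Γ ≃g Γ) (u : W Γ) {y y' : LI S} (h : ∀ s, y' (φ s) = y s) :
    tr w φ (pt u y) = pt (w * aut φ u) y' := li_ext fun r => by
  obtain ⟨q, hq⟩ := (aut φ).surjective (w⁻¹ * r * w)
  rw [tr_apply, pt_apply, pt_apply, sg_mul, ← hq, MulEquiv.symm_apply_apply, sg_aut, mul_assoc,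
    ← ex_aut φ h, map_mul, map_mul, hq]
  simp [mul_assoc]

theorem aut_refl (u : W Γ) : aut (RelIso.refl Γ.Adj) u = u :=
  DFunLike.congr_fun (hom_ext (φ := (aut (RelIso.refl Γ.Adj)).toMonoidHom) (ψ := MonoidHom.id _)
    fun s => aut_gen _ s) u

theorem pt_mul_congr (w : W Γ) {u u' : W Γ} {y y' : LI S} (h : pt u y = pt u' y') :
    pt (w * u) y = pt (w * u') y' := by
  have a := tr_pt w (RelIso.refl Γ.Adj) u (y := y) (y' := y) fun _ => rfl
  have b := tr_pt w (RelIso.refl Γ.Adj) u' (y := y') (y' := y') fun _ => rfl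
  rw [aut_refl] at a b
  rw [← a, ← b, h]

variable {u u' r : W Γ} {y y' : LI S}

theorem gap (h : r ∈ N (u⁻¹ * u')) (y y' : LI S) :
    (1 - ex y r) + (1 - ex y' ((u⁻¹ * u')⁻¹ * r * (u⁻¹ * u'))) ≤ ‖pt u y - pt u' y'‖ := by
  refine le_trans ?_ (sub_le_norm _ _ (u * r * u⁻¹))
  have e : sg u' (u * r * u⁻¹) = -sg u (u * r * u⁻¹) := by
    have := sg_mul u (u⁻¹ * u') (u * r * u⁻¹)
    rw [mul_inv_cancel_left] at this
    rw [this, sg_mem (u := u⁻¹ * u') (by simpa [mul_assoc] using h)]; ring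
  rw [pt_apply, pt_apply, e, neg_mul, sub_neg_eq_add, ← mul_add, abs_mul, abs_sg, one_mul]
  refine le_trans (le_of_eq ?_) (le_abs_self _)
  simp [mul_assoc]

theorem ex_le (y : LI S) (r : W Γ) : ex y r ≤ ‖y‖ := (le_abs_self _).trans (abs_ex y r)

theorem near_mem (hy : ‖y'‖ ≤ 1) (h : ‖pt u y - pt u' y'‖ < 1) : u⁻¹ * u' ∈ WT Γ {s | y s ≠ 0} :=
  mem_WT_of_N fun r hr => mem_of_ex fun e => by
    have := gap hr y y'
    have := ex_le y' ((u⁻¹ * u')⁻¹ * r * (u⁻¹ * u'))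
    linarith

theorem near_eq (hy : ‖y'‖ ≤ 1) (h : ‖pt u y - pt u' y'‖ < 1 - ‖y‖) : u = u' := by
  have : u⁻¹ * u' ∈ WT Γ ∅ := mem_WT_of_N fun r hr => by
    have := gap hr y y'
    have := ex_le y' ((u⁻¹ * u')⁻¹ * r * (u⁻¹ * u'))
    have := ex_le y r
    exfalso; linarith
  simpa [WT, inv_mul_eq_one] using this

theorem star_mem (h : ‖pt 1 0 - pt u y‖ < 2) : u ∈ WT Γ {s | y s ≠ 0} :=
  inv_mem_iff.1 <| mem_WT_of_N fun r hr => mem_of_ex fun e => by
    rw [mem_N_inv] at hr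
    have := gap (u := 1) (u' := u) (by simpa using hr) 0 y
    have h1 := ex_le (0 : LI S) (u * r * u⁻¹)
    simp only [inv_one, one_mul, mul_assoc, inv_mul_cancel, mul_one, inv_mul_cancel_left, e,
      norm_zero] at this h1
    linarith

theorem eq_of_conj {s t : S} (h : u⁻¹ * gen Γ s * u = gen Γ t) : s = t := by
  classical
  let χ : W Γ →* ℤˣ := lift (fun a => if a = s then -1 else 1) (fun a => by split_ifs <;> simp)
    fun _ _ _ => Commute.all _ _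
  have := congrArg χ h
  rw [map_mul, map_mul, map_inv, inv_mul_cancel_comm] at this
  by_contra e
  simp [χ, Ne.symm e] at this

theorem abs_pt (hy : ‖y‖ ≤ 1) (u r : W Γ) : |pt u y r| = 1 - ex y (u⁻¹ * r * u) := by
  have := ex_le y (u⁻¹ * r * u)
  rw [pt_apply, abs_mul, abs_sg, one_mul, abs_of_nonneg (by linarith)]

theorem sub_le_pt (hy : y ∈ Kc Γ) (hy' : y' ∈ Kc Γ) (u u' : W Γ) :
    ‖y - y'‖ ≤ ‖pt u y - pt u' y'‖ := by
  have a : ∀ {y y' : LI S} (u u' : W Γ) (s : S), y ∈ Kc Γ → y' ∈ Kc Γ →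
      y s - y' s ≤ ‖pt u y - pt u' y'‖ := fun {y y'} u u' s hy hy' => by
    have h1 := (abs_abs_sub_abs_le_abs_sub _ _).trans (sub_le_norm (pt u y) (pt u' y') (u * gen Γ s * u⁻¹))
    rw [abs_pt hy.2, abs_pt hy'.2] at h1
    have h2 : ex y' (u'⁻¹ * (u * gen Γ s * u⁻¹) * u') ≤ y' s := by
      rcases ex_ind (u'⁻¹ * (u * gen Γ s * u⁻¹) * u') with ⟨t, ht⟩ | ⟨-, e⟩
      · obtain rfl : s = t := eq_of_conj (u := u⁻¹ * u') (by rw [← ht]; simp [mul_assoc])
        rw [ht, ex_gen]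
      · rw [e]; exact hy'.1.1 s
    simp only [mul_assoc, inv_mul_cancel, mul_one, inv_mul_cancel_left, ex_gen] at h1 h2
    linarith [(abs_le.1 h1).1]
  refine norm_sub_le' (norm_nonneg _) fun s => abs_sub_le_iff.2 ⟨a u u' s hy hy', ?_⟩
  rw [norm_sub_rev]
  exact a u' u s hy' hy

/-- coordinates on the star of the base vertex -/
def res (z : LI (W Γ)) : LI S := mkL (fun s => 1 - z (gen Γ s)) (1 + ‖z‖) fun s =>
  (abs_sub _ _).trans (by simpa using abs_le_norm z _)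

theorem res_apply (z : LI (W Γ)) (s : S) : res z s = 1 - z (gen Γ s) := rfl

theorem continuous_res : Continuous (res : LI (W Γ) → LI S) := cont_of fun z z' s => by
  rw [res_apply, res_apply, sub_sub_sub_cancel_left, abs_sub_comm]
  exact sub_le_norm z z' _

@[simp] theorem res_pt (y : LI S) : res (pt (1 : W Γ) y) = y := li_ext fun s => by
  simp [res_apply, pt_one]

theorem norm_pt (y : LI S) : ‖pt (1 : W Γ) 0 - pt 1 y‖ = ‖y‖ := by
  refine le_antisymm (norm_sub_le' (norm_nonneg _) fun r => by simpa using pt_sub 1 0 y r)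
    (norm_le (norm_nonneg _) fun s => le_trans ?_ (sub_le_norm _ _ (gen Γ s)))
  simp [pt_one]

theorem pt_WT {A : Set S} (hA : Γ.IsClique A) (hy : {s | y s ≠ 0} ⊆ A) (hu : u ∈ WT Γ A) (r : W Γ) :
    pt u y r = sg u r * (1 - ex y r) := by rw [pt_apply, ex_conj hA hy hu]

/-- unfolding -/
theorem unfold (hy : y ∈ Kc Γ) (hu : u ∈ WT Γ {s | y s ≠ 0}) :
    ∃ y' : LI S, (∀ s, 0 ≤ y' s ∧ y' s ≤ 2) ∧ (∀ s, y' s ≠ 0 → y s ≠ 0) ∧ pt 1 y' = pt u y ∧
      fld y' = y := by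
  have e := pt_WT hy.1.2.2 subset_rfl hu
  have hN := N_sub_of_WT hy.1.2.2 hu
  refine ⟨res (pt u y), fun s => ?_, fun s h h0 => h ?_, li_ext fun r => ?_, li_ext fun s => ?_⟩
  · have h1 := abs_pt hy.2 u (gen Γ s)
    have h2 := hy.1.1 s
    rw [ex_conj hy.1.2.2 subset_rfl hu, ex_gen] at h1
    have := abs_le.1 h1.le
    rw [res_apply]
    constructor <;> linarith
  · rw [res_apply, e, sg_nmem, ex_gen, h0]
    · simp
    · intro h
      obtain ⟨t, ht, e⟩ := hN h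
      exact ht (gen_injective e ▸ h0)
  · rw [pt_one]
    rcases ex_ind r with ⟨s, rfl⟩ | ⟨h1, h2⟩
    · simp [res_apply]
    · rw [e, h2, h2, sg_nmem, one_mul]
      intro h
      obtain ⟨t, -, e⟩ := hN h
      exact h1 t e
  · rw [fld_apply, res_apply, sub_sub_cancel, abs_pt hy.2, ex_conj hy.1.2.2 subset_rfl hu, ex_gen,
      sub_sub_cancel]

theorem fld_ne {s : S} (h : fld y s ≠ 0) : y s ≠ 0 := fun e => h (by simp [fld_apply, e])

theorem fld_mem (hy : y ∈ Cone (Fl Γ)) (h2 : ∀ s, y s ≤ 2) : fld y ∈ Kc Γ := by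
  have a : ∀ s, 0 ≤ fld y s := fun s => by
    have := hy.1 s
    have := h2 s
    rw [fld_apply, sub_nonneg, abs_le]
    constructor <;> linarith
  refine ⟨⟨a, Fl.mono hy.2 fun s => fld_ne⟩, norm_le zero_le_one fun s => ?_⟩
  rw [abs_of_nonneg (a s), fld_apply]
  linarith [abs_nonneg (1 - y s)]

/-- folding -/
theorem fold (hy : y ∈ Cone (Fl Γ)) : ∃ w : W Γ, pt 1 y = pt w (fld y) := by
  classical
  have hs : {s | 1 < y s} ⊆ {s | y s ≠ 0} := fun s h e => by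
    rw [mem_ofPred, e] at h; norm_num at h
  let σ := (hy.2.1.subset hs).toFinset
  have hσ : (σ : Set S) = {s | 1 < y s} := Finite.coe_toFinset _
  have hc : Γ.IsClique (σ : Set S) := hσ ▸ hy.2.2.subset hs
  have hw : pr Γ σ ∈ WT Γ {s | y s ≠ 0} := pr_mem_WT (hσ ▸ hs)
  refine ⟨pr Γ σ, li_ext fun r => ?_⟩
  rw [pt_one, pt_WT hy.2.2 (fun s => fld_ne) hw]
  rcases ex_ind r with ⟨s, rfl⟩ | ⟨h1, h2⟩
  · rw [ex_gen, ex_gen, fld_apply, sub_sub_cancel]
    have e : gen Γ s ∈ N (pr Γ σ) ↔ 1 < y s := by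
      rw [gen_mem_N_pr hc, ← Finset.mem_coe, hσ, mem_ofPred]
    by_cases h : 1 < y s
    · rw [sg_mem (e.2 h), abs_of_neg (by linarith)]; ring
    · rw [sg_nmem (mt e.1 h), abs_of_nonneg (by linarith), one_mul]
  · rw [h2, h2, sg_nmem, one_mul]
    intro h
    obtain ⟨t, -, e⟩ := N_sub_of_WT hy.2.2 hw h
    exact h1 t e

end Crest.Agent.N233.Dv

end
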