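import Crest.Agent.N233.Dv.Pt

/-!
# Row 233 (helper43): the Davis complex is contractible (explicit truncation along the depth of walls)
-/

set_option autoImplicit false
open Set Filter Topology unitInterval

noncomputable section

namespace Crest.Agent.N233.Dv

open Crest.Agent.N255.Ra

variable {S : Type} {Γ : SimpleGraph S}

/-- the Davis complex -/
def Sig (Γ : SimpleGraph S) : Set (LI (W Γ)) := {z | ∃ u, ∃ y ∈ Kc Γ, z = pt u y}

/-- the cube with top vertex `u` -/
def D (u : W Γ) (z : W Γ → ℝ) : Prop :=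
  (∀ r, |z r| ≤ 1) ∧ (∀ r, r ∉ N u → z r = 1) ∧
    ∀ r ∈ N u, z r = -1 ∨ ∃ s ∈ In u, r = u * gen Γ s * u⁻¹

variable {u r : W Γ} {y : LI S}

theorem exists_D {z : LI (W Γ)} (h : z ∈ Sig Γ) : ∃ u, D u z := by
  classical
  obtain ⟨u, y, hy, rfl⟩ := h
  let τ := hy.1.2.1.toFinset
  have hτ : (τ : Set S) = {s | y s ≠ 0} := Finite.coe_toFinset _
  have hc : Γ.IsClique (τ : Set S) := hτ ▸ hy.1.2.2
  have h1 : (top u τ)⁻¹ * u ∈ WT Γ {s | y s ≠ 0} := by
    rw [← hτ]; simpa using inv_mem (top_mem u τ)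
  obtain ⟨y', h2, h3, h4, -⟩ := unfold hy h1
  have h5 := pt_mul_congr (top u τ) h4
  rw [mul_one, mul_inv_cancel_left] at h5
  have h6 : ∀ r, ex y' ((top u τ)⁻¹ * r * top u τ) ≠ 0 →
      ∃ s ∈ In (top u τ), r = top u τ * gen Γ s * (top u τ)⁻¹ := fun r h => by
    obtain ⟨s, hs, e⟩ := mem_of_ex h
    exact ⟨s, mem_In_top hc (by rw [← Finset.mem_coe, hτ]; exact h3 s hs), conj_iff.1 e.symm⟩
  refine ⟨top u τ, fun r => ?_, fun r hr => ?_, fun r hr => ?_⟩ <;> rw [← h5, pt_apply]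
  · rw [abs_mul, abs_sg, one_mul]
    rcases ex_ind ((top u τ)⁻¹ * r * top u τ) with ⟨s, e⟩ | ⟨-, e⟩
    · rw [e, ex_gen, abs_le]; constructor <;> linarith [h2 s]
    · simp [e]
  · by_cases h : ex y' ((top u τ)⁻¹ * r * top u τ) = 0
    · simp [h, sg_nmem hr]
    · obtain ⟨s, hs, rfl⟩ := h6 r h
      exact absurd (last_mem_N.2 hs) hr
  · by_cases h : ex y' ((top u τ)⁻¹ * r * top u τ) = 0
    · simp [h, sg_mem hr]
    · exact Or.inr (h6 r h)

theorem D.mem {z : LI (W Γ)} (h : D u z) : z ∈ Sig Γ := by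
  classical
  have b : ∀ s, 0 ≤ (if s ∈ In u then 1 + z (u * gen Γ s * u⁻¹) else 0) ∧
      (if s ∈ In u then 1 + z (u * gen Γ s * u⁻¹) else 0) ≤ 2 := fun s => by
    have := abs_le.1 (h.1 (u * gen Γ s * u⁻¹))
    split_ifs
    · constructor <;> linarith
    · norm_num
  let y : LI S := mkL _ 2 fun s => (abs_of_nonneg (b s).1).trans_le (b s).2
  have hy : y ∈ Cone (Fl Γ) := ⟨fun s => (b s).1, Fl.mono ⟨In_finite u, In_clique u⟩ fun s hs => by
    by_contra e
    exact hs (if_neg e)⟩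
  obtain ⟨w, hw⟩ := fold hy
  refine ⟨u * w, fld y, fld_mem hy fun s => (b s).2, ?_⟩
  rw [← pt_mul_congr u hw, mul_one]
  refine li_ext fun r => ?_
  rw [pt_apply]
  rcases ex_ind (u⁻¹ * r * u) with ⟨s, e⟩ | ⟨h1, e⟩
  · rw [e, ex_gen, conj_iff.1 e]
    by_cases hs : s ∈ In u
    · rw [sg_mem (last_mem_N.2 hs)]; simp [y, hs]
    · rw [sg_nmem (mt last_mem_N.1 hs), h.2.1 _ (mt last_mem_N.1 hs)]; simp [y, hs]
  · rw [e]
    by_cases hr : r ∈ N u
    · rcases h.2.2 r hr with h2 | ⟨s, -, h2⟩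
      · simp [h2, sg_mem hr]
      · exact absurd (conj_iff.2 h2).symm (h1 s)
    · simp [h.2.1 r hr, sg_nmem hr]

/-- truncation -/
def trf (T : ℝ) (z : W Γ → ℝ) (r : W Γ) : ℝ := max (z r) (1 - 2 * max 0 (T - dep r))

theorem trf_one {z : W Γ → ℝ} (T : ℝ) (h : z r = 1) : trf T z r = 1 := by
  rw [trf, h, max_eq_left]; linarith [le_max_left 0 (T - dep r)]

theorem trf_of_le {z : W Γ → ℝ} {T : ℝ} (h : |z r| ≤ 1) (h' : T ≤ dep r) : trf T z r = 1 := by
  rw [trf, max_eq_left (by linarith : T - dep r ≤ 0), mul_zero, sub_zero, max_eq_right (abs_le.1 h).2]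

theorem trf_of_ge {z : W Γ → ℝ} {T : ℝ} (h : |z r| ≤ 1) (h' : dep r + 1 ≤ T) : trf T z r = z r := by
  rw [trf, max_eq_left]
  linarith [le_max_right 0 (T - dep r), (abs_le.1 h).1]

theorem D.trf (T : ℝ) {z : W Γ → ℝ} (h : D u z) : ∃ u', D u' (trf T z) := by
  classical
  induction hn : len u using Nat.strong_induction_on generalizing u z with
  | _ n ih =>
  by_cases a : ∃ s ∈ In u, T ≤ dep (u * gen Γ s * u⁻¹)
  · obtain ⟨s, hs, hT⟩ := a
    have hl := len_mem hs
    have h1 : D (u * gen Γ s) (Function.update z (u * gen Γ s * u⁻¹) 1) := by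
      refine ⟨fun r => ?_, fun r hr => ?_, fun r hr => ?_⟩ <;>
        by_cases e : r = u * gen Γ s * u⁻¹
      · simp [e]
      · rw [Function.update_of_ne e]; exact h.1 r
      · simp [e]
      · rw [Function.update_of_ne e]
        rw [mem_N_mul_gen] at hr
        exact h.2.1 r (by tauto)
      · rw [mem_N_mul_gen, e, last_mem_N] at hr
        tauto
      · rw [Function.update_of_ne e]
        rw [mem_N_mul_gen] at hr
        refine (h.2.2 r (by tauto)).imp_right fun ⟨t, ht, e'⟩ => ?_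
        have ad := In_clique u hs ht (by rintro rfl; exact e e')
        exact ⟨t, (mem_In_mul_adj ad).2 ht, by rw [last_mul_adj ad, e']⟩
    obtain ⟨u', h2⟩ := ih _ (by omega) h1 rfl
    refine ⟨u', ?_⟩
    convert h2 using 1
    funext r
    by_cases e : r = u * gen Γ s * u⁻¹
    · rw [trf_one T (z := Function.update _ _ _) (by simp [e]), trf_of_le (h.1 r) (e ▸ hT)]
    · simp only [Dv.trf, Function.update_of_ne e]
  · push Not at a
    refine ⟨u, fun r => ?_, fun r hr => trf_one T (h.2.1 r hr), fun r hr => ?_⟩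
    · have := abs_le.1 (h.1 r)
      refine abs_le.2 ⟨this.1.trans (le_max_left _ _), max_le this.2 ?_⟩
      linarith [le_max_left 0 (T - dep r)]
    · obtain ⟨s, hs, e | e⟩ := exists_last hr
      · exact Or.inr ⟨s, hs, e⟩
      · have h1 : (dep r : ℝ) + 1 ≤ dep (u * gen Γ s * u⁻¹) := by exact_mod_cast e
        rw [trf_of_ge (h.1 r) (h1.trans (a s hs).le)]
        exact h.2.2 r hr

/-- truncation -/
def trc (T : ℝ) (z : LI (W Γ)) : LI (W Γ) := mkL (trf T z) (‖z‖ + 1) fun r => by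
  have := abs_le.1 (abs_le_norm z r)
  refine abs_le.2 ⟨le_trans (by linarith) (le_max_left _ _), max_le (by linarith) ?_⟩
  linarith [le_max_left 0 (T - dep r), norm_nonneg z]

theorem continuous_trc : Continuous fun p : ℝ × LI (W Γ) => trc p.1 p.2 :=
  (LipschitzWith.of_dist_le_mul (K := 2) fun p q => by
    rw [dist_eq_norm]
    refine norm_sub_le' (by positivity) fun r => (abs_max_sub_max_le_max _ _ _ _).trans (max_le ?_ ?_)
    · have h1 := sub_le_norm p.2 q.2 r
      have h2 : ‖p.2 - q.2‖ ≤ dist p q := by rw [← dist_eq_norm]; exact le_max_right _ _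
      have := dist_nonneg (x := p) (y := q)
      push_cast; linarith
    · have h1 := abs_max_sub_max_le_max 0 (q.1 - dep r) 0 (p.1 - dep r)
      have h2 : |q.1 - p.1| ≤ dist p q := by rw [abs_sub_comm, ← Real.dist_eq]; exact le_max_left _ _
      rw [sub_sub_sub_cancel_left, ← mul_sub, abs_mul, abs_two]
      rw [sub_self, abs_zero, sub_sub_sub_cancel_right, max_eq_right (abs_nonneg (q.1 - p.1))] at h1
      push_cast; linarith).continuous

theorem trc_mem (T : ℝ) {z : LI (W Γ)} (h : z ∈ Sig Γ) : trc T z ∈ Sig Γ := by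
  obtain ⟨u, hu⟩ := exists_D h
  obtain ⟨u', h'⟩ := hu.trf T
  exact D.mem (z := trc T z) h'

theorem trc_one {z : LI (W Γ)} (h : z ∈ Sig Γ) : trc 1 z = pt 1 0 := li_ext fun r => by
  obtain ⟨u, hu⟩ := exists_D h
  have e : pt (1 : W Γ) (0 : LI S) r = 1 := by
    have := abs_ex (0 : LI S) r
    rw [norm_zero, abs_nonpos_iff] at this
    rw [pt_one, this, sub_zero]
  rw [e]
  by_cases hr : r ∈ N u
  · exact trf_of_le (hu.1 r) (by exact_mod_cast dep_pos hr)
  · exact trf_one 1 (hu.2.1 r hr)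

theorem trc_eq (hy : y ∈ Kc Γ) {T : ℝ} (h : len u + 2 ≤ T) : trc T (pt u y) = pt u y := li_ext fun r => by
  obtain ⟨u', hu⟩ := exists_D ⟨u, y, hy, rfl⟩
  by_cases e : pt u y r = 1
  · exact (trf_one T e).trans e.symm
  refine trf_of_ge (hu.1 r) ?_
  have : dep r ≤ len u + 1 := by
    by_cases hr : r ∈ N u
    · exact (dep_le hr).trans (Nat.le_succ _)
    · obtain ⟨s, -, hs⟩ := mem_of_ex (y := y) (r := u⁻¹ * r * u) fun h0 => e (by
        simp [pt_apply, h0, sg_nmem hr])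
      have h1 : r ∈ N (u * gen Γ s) := by
        rw [mem_N_mul_gen]
        have := conj_iff.1 hs.symm
        tauto
      exact (dep_le h1).trans (by simpa using len_mul_le u (gen Γ s))
  have : (dep r : ℝ) ≤ len u + 1 := by exact_mod_cast this
  linarith

theorem WT_finite {A : Set S} (h : Fl Γ A) : (WT Γ A : Set (W Γ)).Finite := by
  classical
  lift A to Finset S using h.1
  refine (A.powerset.finite_toSet.image (pr Γ)).subset fun u hu => ?_
  obtain ⟨B, h1, rfl⟩ := (mem_WT h.2).1 hu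
  exact ⟨B, by simpa using h1, rfl⟩

/-- chambers are locally finite -/
theorem near_finite (hy : y ∈ Kc Γ) (u : W Γ) :
    {u' | ∃ y' ∈ Kc Γ, ‖pt u y - pt u' y'‖ < 1}.Finite :=
  ((WT_finite hy.1.2).image (u * ·)).subset fun u' ⟨_, h1, h2⟩ =>
    ⟨u⁻¹ * u', near_mem h1.2 h2, by simp⟩

open Classical in
/-- the contraction -/
def ctr (p : I × Sig Γ) : Sig Γ := if p.1 = 0 then p.2 else ⟨trc (p.1 : ℝ)⁻¹ p.2, trc_mem _ p.2.2⟩

theorem continuous_ctr : Continuous (ctr : I × Sig Γ → Sig Γ) := by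
  refine continuous_iff_continuousAt.2 fun p => ?_
  by_cases h : p.1 = 0
  · obtain ⟨u, y, hy, e⟩ := p.2.2
    obtain ⟨B, hB⟩ := ((near_finite hy u).image len).bddAbove
    refine continuous_snd.continuousAt.congr ?_
    have h1 : ∀ᶠ q : I × Sig Γ in 𝓝 p, ‖p.2.1 - q.2.1‖ < 1 :=
      (by fun_prop : Continuous fun q : I × Sig Γ => ‖p.2.1 - q.2.1‖).continuousAt.eventually_lt
        continuousAt_const (by simp)
    have h2 : ∀ᶠ q : I × Sig Γ in 𝓝 p, (q.1 : ℝ) < ((B : ℝ) + 2)⁻¹ :=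
      (by fun_prop : Continuous fun q : I × Sig Γ => (q.1 : ℝ)).continuousAt.eventually_lt
        continuousAt_const (by rw [h]; change (0 : ℝ) < _; positivity)
    filter_upwards [h1, h2] with q h1 h2
    unfold ctr
    split_ifs with h0
    · rfl
    · obtain ⟨u', y', hy', e'⟩ := q.2.2
      refine Subtype.ext ?_
      change _ = trc _ _
      rw [e', trc_eq hy']
      have h3 : len u' ≤ B := hB ⟨u', ⟨y', hy', by rwa [← e, ← e']⟩, rfl⟩
      have h4 : (len u' : ℝ) ≤ B := by exact_mod_cast h3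
      have h5 : (0 : ℝ) < q.1 := lt_of_le_of_ne q.1.2.1 fun e => h0 (Subtype.ext e.symm)
      have := (lt_inv_comm₀ h5 (by positivity)).1 h2
      linarith
  · have h0 : (p.1 : ℝ) ≠ 0 := fun e => h (Subtype.ext e)
    rw [IsInducing.subtypeVal.continuousAt_iff]
    refine ContinuousAt.congr (f := fun q : I × Sig Γ => trc (q.1 : ℝ)⁻¹ q.2.1) ?_ ?_
    · exact continuous_trc.continuousAt.comp (f := fun q : I × Sig Γ => ((q.1 : ℝ)⁻¹, q.2.1))
        (((by fun_prop : Continuous fun q : I × Sig Γ => (q.1 : ℝ)).continuousAt.inv₀ h0).prodMk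
          (by fun_prop))
    · filter_upwards [continuous_fst.continuousAt.eventually_ne h] with q hq
      simp [ctr, hq]

instance : ContractibleSpace (Sig Γ) :=
  (contractible_iff_id_nullhomotopic _).2 ⟨⟨pt 1 0, 1, 0, zero_mem_Kc, rfl⟩,
    ⟨⟨⟨ctr, continuous_ctr⟩, fun z => by simp [ctr], fun z => Subtype.ext (by
      simp [ctr, trc_one z.2])⟩⟩⟩

end Crest.Agent.N233.Dv

end
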