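import Crest.Agent.N233.Dv.Man
import Crest.Agent.N233.Ae.Ext
import Crest.Agent.N233.Hyp.Sub

/-!
# Row 233 (helper43): torsion free subgroups, lifts, realisation of isomorphisms, reduction of the row
-/

set_option autoImplicit false
open Set Filter Topology unitInterval

noncomputable section

namespace Crest.Agent.N233

open Crest.Agent.N255.Ra MulAction Dv

section abs
variable {G G' A B : Type} [Group G] [Group G'] [TopologicalSpace A] [TopologicalSpace B]
  [MulAction G A] [MulAction G' B]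

/-- the map of orbit spaces -/
def qm (α : G → G') (f : C(A, B)) (hf : ∀ g a, f (g • a) = α g • f a) :
    C(orbitRel.Quotient G A, orbitRel.Quotient G' B) :=
  ⟨Quotient.map f (by rintro _ a ⟨g, rfl⟩; exact ⟨α g, (hf g a).symm⟩),
    continuous_quotient_mk'.comp f.continuous |>.quotient_lift _⟩

variable [T2Space A] [LocallyCompactSpace A] [ContinuousConstSMul G A] [ProperlyDiscontinuousSMul G A]
  [T2Space B] [LocallyCompactSpace B] [ContinuousConstSMul G' B] [ProperlyDiscontinuousSMul G' B]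

omit [T2Space B] [LocallyCompactSpace B] [ProperlyDiscontinuousSMul G' B] in
theorem exists_map_of [SigmaCompactSpace A] (α : G →* G') (hB : Ae.LNE B) (nB : Ae.Null B)
    (fA : ∀ (g : G) (a : A), g • a = a → g = 1) : ∃ f : C(A, B), ∀ g a, f (g • a) = α g • f a :=
  letI := MulAction.compHom B α
  haveI : ContinuousConstSMul G B := ⟨fun g => continuous_const_smul (α g)⟩
  Ae.exists_map hB nB fA

theorem qm_id [SigmaCompactSpace A] (hA : Ae.LNE A) (nA : Ae.Null A)
    (fA : ∀ (g : G) (a : A), g • a = a → g = 1) (f : C(A, A)) (hf : ∀ (g : G) a, f (g • a) = g • f a) :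
    (qmap f hf).Homotopic (.id _) := by
  obtain ⟨H, h1, h2, h3⟩ := Ae.exists_htpy' hA nA fA f.continuous continuous_id hf fun _ _ => rfl
  have := qmap_homotopic hf (f' := .id A) (fun _ _ => rfl)
    ⟨⟨fun q => H (q.2, q.1), by fun_prop⟩, h2, h3⟩ fun g t a => h1 g a t
  convert this using 1
  ext ⟨a⟩; rfl

/-- every isomorphism of the groups is realised by a homotopy equivalence -/
theorem exists_eqv_of [SigmaCompactSpace A] [SigmaCompactSpace B] (α : G ≃* G') (hA : Ae.LNE A)
    (nA : Ae.Null A) (hB : Ae.LNE B) (nB : Ae.Null B) (fA : ∀ (g : G) (a : A), g • a = a → g = 1)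
    (fB : ∀ (g : G') (b : B), g • b = b → g = 1) :
    ∃ (ft : C(A, B)) (f : ContinuousMap.HomotopyEquiv (orbitRel.Quotient G A) (orbitRel.Quotient G' B)),
      (∀ g a, ft (g • a) = α g • ft a) ∧ ∀ a, f.toFun (Quotient.mk _ a) = Quotient.mk _ (ft a) := by
  obtain ⟨f, hf⟩ := exists_map_of α.toMonoidHom hB nB fA
  obtain ⟨f', hf'⟩ := exists_map_of α.symm.toMonoidHom hA nA fB
  refine ⟨f, ⟨qm _ f hf, qm _ f' hf', ?_, ?_⟩, hf, fun _ => rfl⟩
  · convert qm_id hA nA fA (f'.comp f) fun g a => by simp [hf, hf'] using 1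
    ext ⟨a⟩; rfl
  · convert qm_id hB nB fB (f.comp f') fun g a => by simp [hf, hf'] using 1
    ext ⟨a⟩; rfl

/-- a homeomorphism of the quotients lifts -/
theorem exists_lift [SimplyConnectedSpace A] [LocallyPathConnectedSpace A] [SimplyConnectedSpace B]
    [LocallyPathConnectedSpace B] [IsCancelSMul G A] [IsCancelSMul G' B]
    (h : orbitRel.Quotient G A ≃ₜ orbitRel.Quotient G' B) :
    ∃ (ht : A ≃ₜ B) (α : G ≃* G'), (∀ g a, ht (g • a) = α g • ht a) ∧
      ∀ a, h (Quotient.mk _ a) = Quotient.mk _ (ht a) := by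
  have qA : IsQuotientCoveringMap (Quotient.mk (orbitRel G A)) G :=
    isQuotientCoveringMap_quotientMk_of_properlyDiscontinuousSMul
  have qB : IsQuotientCoveringMap (Quotient.mk (orbitRel G' B)) G' :=
    isQuotientCoveringMap_quotientMk_of_properlyDiscontinuousSMul
  obtain ⟨a0⟩ : Nonempty A := inferInstance
  obtain ⟨b0, hb⟩ := Quotient.exists_rep (h (Quotient.mk _ a0))
  obtain ⟨f, ⟨f0, f1⟩, -⟩ := qB.isCoveringMap.existsUnique_continuousMap_lifts
    ⟨fun a => h (Quotient.mk _ a), h.continuous.comp continuous_quotient_mk'⟩ a0 b0 hb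
  obtain ⟨f', ⟨f0', f1'⟩, -⟩ := qA.isCoveringMap.existsUnique_continuousMap_lifts
    ⟨fun b => h.symm (Quotient.mk _ b), h.symm.continuous.comp continuous_quotient_mk'⟩ b0 a0
    (by change _ = h.symm _; rw [hb, h.symm_apply_apply])
  have e1 : ∀ a, Quotient.mk _ (f a) = h (Quotient.mk _ a) := congrFun f1
  have e2 : ∀ b, Quotient.mk _ (f' b) = h.symm (Quotient.mk _ b) := congrFun f1'
  have l1 : f' ∘ f = id := qA.isCoveringMap.eq_of_comp_eq (by fun_prop) continuous_id
    (funext fun a => by simp [e1, e2]) a0 (by simp [f0, f0'])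
  have l2 : f ∘ f' = id := qB.isCoveringMap.eq_of_comp_eq (by fun_prop) continuous_id
    (funext fun a => by simp [e1, e2]) b0 (by simp [f0, f0'])
  let ht : A ≃ₜ B := ⟨⟨f, f', congrFun l1, congrFun l2⟩, f.continuous, f'.continuous⟩
  have mA : ∀ (g : G) (a : A), Quotient.mk (orbitRel G A) (g • a) = Quotient.mk _ a := fun g a =>
    Quotient.sound ⟨g, rfl⟩
  have mB : ∀ (g : G') (b : B), Quotient.mk (orbitRel G' B) (g • b) = Quotient.mk _ b := fun g b =>
    Quotient.sound ⟨g, rfl⟩
  have ex : ∀ g : G, ∃ g' : G', ∀ a, f (g • a) = g' • f a := fun g => by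
    obtain ⟨g', hg⟩ : f (g • a0) ∈ orbit G' (f a0) := Quotient.exact (s := orbitRel G' B)
      (show Quotient.mk _ (f (g • a0)) = Quotient.mk _ (f a0) by rw [e1, e1, mA])
    exact ⟨g', congrFun (qB.isCoveringMap.eq_of_comp_eq (g₁ := fun a => f (g • a))
      (g₂ := fun a => g' • f a) (by fun_prop) (by fun_prop)
      (funext fun a => by simp [e1, mA, mB]) a0 hg.symm)⟩
  choose α hα using ex
  let α' : G →* G' := MonoidHom.mk' α fun g k => IsCancelSMul.right_cancel _ _ (f a0) (by
    rw [← hα, mul_smul, mul_smul, hα, hα])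
  refine ⟨ht, MulEquiv.ofBijective α' ⟨(injective_iff_map_eq_one α').2 fun g hg => ?_, fun g' => ?_⟩,
    hα, fun a => (e1 a).symm⟩
  · refine IsCancelSMul.right_cancel _ _ a0 (ht.injective ?_)
    change f _ = f _
    rw [hα, one_smul, show α g = 1 from hg, one_smul]
  · obtain ⟨g, hg⟩ : f' (g' • f a0) ∈ orbit G a0 := Quotient.exact (s := orbitRel G A)
      (show Quotient.mk _ (f' (g' • f a0)) = Quotient.mk _ a0 by rw [e2, mB, e1, h.symm_apply_apply])
    refine ⟨g, IsCancelSMul.right_cancel _ _ (f a0) ?_⟩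
    change α g • _ = _
    rw [← hα, show g • a0 = _ from hg]
    exact congrFun l2 _

/-- a homeomorphism homotopic to a map covered by an `α`-equivariant map has an `α`-equivariant lift -/
theorem exists_lift_of_homotopic [SimplyConnectedSpace A] [LocallyPathConnectedSpace A]
    [SimplyConnectedSpace B] [LocallyPathConnectedSpace B] [IsCancelSMul G A] [IsCancelSMul G' B]
    (h : orbitRel.Quotient G A ≃ₜ orbitRel.Quotient G' B)
    {f : C(orbitRel.Quotient G A, orbitRel.Quotient G' B)} {ft : C(A, B)} {α : G → G'}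
    (hα : ∀ g a, ft (g • a) = α g • ft a) (hf : ∀ a, f (Quotient.mk _ a) = Quotient.mk _ (ft a))
    (H : f.Homotopic h) :
    ∃ ht : A ≃ₜ B, (∀ g a, ht (g • a) = α g • ht a) ∧
      ∀ a, h (Quotient.mk _ a) = Quotient.mk _ (ht a) := by
  have qB : IsQuotientCoveringMap (Quotient.mk (orbitRel G' B)) G' :=
    isQuotientCoveringMap_quotientMk_of_properlyDiscontinuousSMul
  have cB := qB.isCoveringMap
  obtain ⟨H⟩ := H
  obtain ⟨h0, -, -, e0⟩ := exists_lift h
  have mA : ∀ (g : G) (a : A), Quotient.mk (orbitRel G A) (g • a) = Quotient.mk _ a := fun g a =>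
    Quotient.sound ⟨g, rfl⟩
  have mB : ∀ (g : G') (b : B), Quotient.mk (orbitRel G' B) (g • b) = Quotient.mk _ b := fun g b =>
    Quotient.sound ⟨g, rfl⟩
  let H' : C(I × A, orbitRel.Quotient G' B) := ⟨fun q => H (q.1, Quotient.mk _ q.2),
    H.continuous.comp (continuous_fst.prodMk (continuous_quotient_mk'.comp continuous_snd))⟩
  have z : ∀ a, H' (0, a) = Quotient.mk _ (ft a) := fun a => (H.apply_zero _).trans (hf a)
  let L := cB.liftHomotopy H' ft z
  have l1 : ∀ q, Quotient.mk _ (L q) = H' q := congrFun (cB.liftHomotopy_lifts H' ft z)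
  have l0 : ∀ a, L (0, a) = ft a := cB.liftHomotopy_zero H' ft z
  have le : ∀ g a, L (1, g • a) = α g • L (1, a) := fun g a =>
    congrFun (cB.eq_of_comp_eq (g₁ := fun t : I => L (t, g • a)) (g₂ := fun t => α g • L (t, a))
      (by fun_prop) (by fun_prop) (funext fun t => by simp [l1, mB, H', mA]) 0
      (by simp [l0, hα])) 1
  have l2 : ∀ a, Quotient.mk _ (L (1, a)) = h (Quotient.mk _ a) := fun a => (l1 _).trans (H.apply_one _)
  obtain ⟨a0⟩ : Nonempty A := inferInstance
  obtain ⟨g1, hg⟩ : L (1, a0) ∈ orbit G' (h0 a0) := Quotient.exact (s := orbitRel G' B)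
    (show Quotient.mk _ (L (1, a0)) = Quotient.mk _ (h0 a0) by rw [l2, e0])
  have e : ∀ a, g1 • h0 a = L (1, a) := congrFun (cB.eq_of_comp_eq (g₁ := fun a => g1 • h0 a)
    (g₂ := fun a => L (1, a)) (by fun_prop) (by fun_prop) (funext fun a => by simp [l2, mB, e0]) a0 hg)
  refine ⟨h0.trans (Homeomorph.smul g1), fun g a => ?_, fun a => ?_⟩
  · exact (e _).trans ((le g a).trans (congrArg _ (e a).symm))
  · exact (e0 a).trans (mB g1 _).symm

end abs

variable {S : Type} {Γ : SimpleGraph S} {F : Type} [Group F] {ρ : F →* (Γ ≃g Γ)}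

theorem Tf.mono {G G' : Subgroup (G0 ρ)} (h : Tf G) (hle : G' ≤ G) : Tf G' := fun g hg => h g (hle hg)

/-- an invariant proper colouring with finitely many colours -/
structure Col (ρ : F →* (Γ ≃g Γ)) where
  K : Type
  [fin : Finite K]
  κ : S → K
  adj : ∀ s t, Γ.Adj s t → κ s ≠ κ t
  inv : ∀ f s, κ (ρ f s) = κ s

namespace Col
variable (C : Col ρ)

open Classical in
/-- the colour parity character -/
def χ : W Γ →* Multiplicative (C.K → ZMod 2) :=
  lift (fun s => Multiplicative.ofAdd (Pi.single (C.κ s) 1))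
    (fun s => by
      rw [← ofAdd_add, ← Pi.single_add, show (1 : ZMod 2) + 1 = 0 from rfl, Pi.single_zero]; rfl)
    fun _ _ _ => Commute.all _ _

theorem χ_aut (f : F) (w : W Γ) : C.χ (aut (ρ f) w) = C.χ w :=
  DFunLike.congr_fun (hom_ext (φ := C.χ.comp (aut (ρ f)).toMonoidHom) (ψ := C.χ) fun s => by
    simp [χ, C.inv]) w

/-- the colour parity character of the big group -/
def χ0 : G0 ρ →* Multiplicative (C.K → ZMod 2) :=
  MonoidHom.mk' (fun g => C.χ g.left) fun a b => by
    rw [SemidirectProduct.mul_left, map_mul, autHom_apply, χ_aut]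

/-- the torsion free subgroup of finite index -/
def G : Subgroup (G0 ρ) := C.χ0.ker

theorem mem_G {g : G0 ρ} : g ∈ C.G ↔ C.χ g.left = 1 := Iff.rfl

instance : C.G.Normal := MonoidHom.normal_ker _

instance : C.G.FiniteIndex :=
  haveI := C.fin
  Subgroup.finiteIndex_ker _

theorem inr_mem (f : F) : SemidirectProduct.inr f ∈ C.G := C.mem_G.2 (map_one _)

theorem χ_pr [DecidableEq S] {B : Finset S} (hB : Γ.IsClique (B : Set S)) {s : S} (hs : s ∈ B) :
    (C.χ (pr Γ B)).toAdd (C.κ s) = 1 := by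
  classical
  have a : ∀ (B : Finset S) (k : C.K), Γ.IsClique (B : Set S) → (∀ t ∈ B, C.κ t ≠ k) →
      (C.χ (pr Γ B)).toAdd k = 0 := fun B k => by
    induction B using Finset.induction_on with
    | empty => simp
    | insert t B ht ih =>
      intro h1 h2
      rw [pr_insert h1 ht, map_mul, toAdd_mul, Pi.add_apply,
        ih (h1.subset (by simp)) fun u hu => h2 u (by simp [hu])]
      simp [χ, (h2 t (by simp)).symm]
  have e : pr Γ B = pr Γ (B.erase s) * gen Γ s := by rw [pr_erase hB hs, mul_gen_gen]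
  rw [e, map_mul, toAdd_mul, Pi.add_apply, a _ _ (hB.subset (by simp)) fun t ht =>
    C.adj _ _ (hB (Finset.mem_of_mem_erase ht) hs (Finset.ne_of_mem_erase ht))]
  simp [χ]

theorem tf : Tf C.G := fun g hg _ v A hA h => by
  classical
  lift A to Finset S using hA.1
  obtain ⟨B, hB, e⟩ := (mem_WT hA.2).1 h
  have h1 : C.χ (pr Γ B) = 1 := by
    rw [← e, map_mul, map_mul, C.mem_G.1 hg, mul_one, map_inv, inv_mul_cancel]
  rcases B.eq_empty_or_nonempty with rfl | ⟨s, hs⟩
  · rw [pr_empty, conj_iff] at e; simpa using e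
  · have := C.χ_pr (hA.2.subset (Finset.coe_subset.2 hB)) hs
    rw [h1] at this
    exact absurd this (by simp)

end Col

instance [Countable S] : Countable (W Γ) := by
  have : Function.Surjective (Hyp.wr Γ) := fun w => (Hyp.exists_wr w).imp fun _ h => h.1
  exact this.countable

instance [Countable S] [Countable F] : Countable (G0 ρ) :=
  Function.Injective.countable (f := fun g : G0 ρ => (g.left, g.right)) fun _ _ h =>
    SemidirectProduct.ext (congrArg Prod.fst h) (congrArg Prod.snd h)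

variable {T : Type} [TopologicalSpace T] [MulAction F T]

namespace Fill
variable (Φ Φ' : FillG ρ T) {G G' : Subgroup (G0 ρ)}

instance [Countable S] [Countable F] : SigmaCompactSpace Φ.Mt := by
  obtain ⟨K, hK, h⟩ := Φ.cocompact
  refine SigmaCompactSpace.of_countable (range fun g : G0 ρ => (g • ·) '' K) (countable_range _)
    (by rintro _ ⟨g, rfl⟩; exact hK.image (continuous_const_smul g)) (eq_univ_of_forall fun m => ?_)
  obtain ⟨g, hg⟩ := h m
  exact ⟨_, ⟨g⁻¹, rfl⟩, _, hg, inv_smul_smul g m⟩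

instance : LocallyPathConnectedSpace Φ.Mt := ChartedSpace.locallyPathConnectedSpace E4 _

theorem free_G (hG : Tf G) (g : G) (m : Φ.Mt) (h : g • m = m) : g = 1 :=
  isCancelSMul_iff_eq_one_of_smul_eq.1 (Φ.cancel hG) g m h

/-- a homeomorphism of the closed manifolds lifts to the universal covers -/
theorem lift_homeo (c : Cmb F T) (hG : Tf G) (hG' : Tf G') (h : Φ.M G ≃ₜ Φ'.M G') :
    ∃ (ht : Φ.Mt ≃ₜ Φ'.Mt) (α : G ≃* G'), (∀ g m, ht (g • m) = α g • ht m) ∧
      ∀ m, h (Quotient.mk _ m) = Quotient.mk _ (ht m) :=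
  haveI := Φ.contractible c
  haveI := Φ'.contractible c
  haveI := Φ.cancel hG
  haveI := Φ'.cancel hG'
  exists_lift h

/-- every isomorphism of the fundamental groups is realised by a homotopy equivalence -/
theorem exists_eqv [Countable S] [Countable F] (c : Cmb F T) (hG : Tf G) (hG' : Tf G') (α : G ≃* G') :
    ∃ (ft : C(Φ.Mt, Φ'.Mt)) (f : ContinuousMap.HomotopyEquiv (Φ.M G) (Φ'.M G')),
      (∀ g m, ft (g • m) = α g • ft m) ∧ ∀ m, f.toFun (Quotient.mk _ m) = Quotient.mk _ (ft m) :=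
  haveI := Φ.contractible c
  haveI := Φ'.contractible c
  exists_eqv_of α (Ae.lne_euc 4) Ae.null_of_contractible (Ae.lne_euc 4) Ae.null_of_contractible
    (Φ.free_G hG) (Φ'.free_G hG')

/-- reduction of S0360 -/
theorem s360_of (c : Cmb F T) [G.FiniteIndex] (hG : Tf G)
    (hyp : Crest.GroupTheory.IsHyperbolicGroup (G0 ρ))
    (no : ∀ (ht : Φ.Mt ≃ₜ Φ'.Mt) (α : G ≃* G), (∀ g m, ht (g • m) = α g • ht m) → False) :
    ∃ (M N : Type) (_ : TopologicalSpace M) (_ : TopologicalSpace N)
      (_ : ChartedSpace (EuclideanSpace ℝ (Fin 4)) M) (_ : ChartedSpace (EuclideanSpace ℝ (Fin 4)) N),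
      T2Space M ∧ SecondCountableTopology M ∧ CompactSpace M ∧ ConnectedSpace M ∧
      T2Space N ∧ SecondCountableTopology N ∧ CompactSpace N ∧ ConnectedSpace N ∧
      Crest.Topology.HasContractibleCover M ∧ Crest.Topology.HasContractibleCover N ∧
      Nonempty (ContinuousMap.HomotopyEquiv M N) ∧ IsEmpty (M ≃ₜ N) ∧
      ∀ x : M, Crest.GroupTheory.IsHyperbolicGroup (FundamentalGroup M x) :=
  ⟨Φ.M G, Φ'.M G, inferInstance, inferInstance, Φ.charts hG, Φ'.charts hG, inferInstance,
    Φ.secondCountable hG, inferInstance, Φ.connected c G, inferInstance, Φ'.secondCountable hG,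
    inferInstance, Φ'.connected c G, Φ.aspherical c hG, Φ'.aspherical c hG, ⟨Φ.eqv Φ' c G⟩,
    ⟨fun h => let ⟨ht, α, e, _⟩ := Φ.lift_homeo Φ' c hG hG h; no ht α e⟩, fun x =>
      (Φ.pi1 c hG x).elim fun e => Hyp.hyp_of_mulEquiv (Hyp.hyp_subgroup hyp G) e⟩

/-- reduction of S0361 -/
theorem s361_of [Countable S] [Countable F] (c : Cmb F T) [G.FiniteIndex] (hG : Tf G) (α : G ≃* G)
    (no : ∀ ht : Φ.Mt ≃ₜ Φ.Mt, (∀ g m, ht (g • m) = α g • ht m) → False) :
    ∃ (M : Type) (_ : TopologicalSpace M) (_ : ChartedSpace (EuclideanSpace ℝ (Fin 4)) M),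
      T2Space M ∧ SecondCountableTopology M ∧ CompactSpace M ∧ ConnectedSpace M ∧
      Crest.Topology.HasContractibleCover M ∧
      ∃ f : ContinuousMap.HomotopyEquiv M M,
        ∀ h : M ≃ₜ M, ¬ ContinuousMap.Homotopic (h : C(M, M)) f.toFun := by
  obtain ⟨ft, f, h1, h2⟩ := Φ.exists_eqv Φ c hG hG α
  have := Φ.contractible c
  have := Φ.cancel hG
  exact ⟨Φ.M G, inferInstance, Φ.charts hG, inferInstance, Φ.secondCountable hG, inferInstance,
    Φ.connected c G, Φ.aspherical c hG, f, fun h H =>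
      let ⟨ht, e, _⟩ := exists_lift_of_homotopic h h1 h2 H.symm; no ht e⟩

end Fill

end Crest.Agent.N233

end
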